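import Mathlib

open Polynomial Finset

namespace Vale.Agent.Lib.P110

variable (N : ℕ) (ε : ℕ → ℤ)

/-- the polynomial with coefficients `ε 0, …, ε (N-1)` -/
noncomputable def pol : ℤ[X] := ∑ k ∈ range N, C (ε k) * X ^ k

/-- the reversed polynomial -/
noncomputable def rev : ℤ[X] := ∑ k ∈ range N, C (ε k) * X ^ (N - 1 - k)

lemma cast_eq_one {a : ℤ} (h : a = 1 ∨ a = -1) : ((a : ℤ) : ZMod 2) = 1 := by
  rcases h with h | h <;> subst h
  · simp
  · simp

lemma map_pol (hε : ∀ k, ε k = 1 ∨ ε k = -1) :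
    (pol N ε).map (Int.castRingHom (ZMod 2)) = ∑ k ∈ range N, X ^ k := by
  simp only [pol, Polynomial.map_sum, Polynomial.map_mul, Polynomial.map_pow, map_X, map_C]
  apply Finset.sum_congr rfl
  intro k _
  simp [cast_eq_one (hε k)]

lemma map_rev (hε : ∀ k, ε k = 1 ∨ ε k = -1) :
    (rev N ε).map (Int.castRingHom (ZMod 2)) = ∑ k ∈ range N, X ^ k := by
  simp only [rev, Polynomial.map_sum, Polynomial.map_mul, Polynomial.map_pow, map_X, map_C]
  rw [← Finset.sum_range_reflect]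
  apply Finset.sum_congr rfl
  intro k hk
  have hk' := Finset.mem_range.1 hk
  have e : N - 1 - (N - 1 - k) = k := by omega
  simp [cast_eq_one (hε (N - 1 - k)), e]

lemma map_mul_eq (hε : ∀ k, ε k = 1 ∨ ε k = -1) :
    (pol N ε * rev N ε).map (Int.castRingHom (ZMod 2)) = ∑ k ∈ range N, X ^ (2 * k) := by
  rw [Polynomial.map_mul, map_pol N ε hε, map_rev N ε hε, ← sq, sum_pow_char 2]
  apply Finset.sum_congr rfl
  intro k _
  rw [← pow_mul, mul_comm]

lemma coeff_odd (hε : ∀ k, ε k = 1 ∨ ε k = -1) (j : ℕ) (hj : j < N) :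
    (pol N ε * rev N ε).coeff (2 * j) ≠ 0 := by
  intro h
  have h1 := congrArg (fun p => p.coeff (2 * j)) (map_mul_eq N ε hε)
  simp only [coeff_map, h, finsetSum_coeff, coeff_X_pow] at h1
  rw [Finset.sum_eq_single j] at h1
  · simp at h1
  · intro b _ hb
    rw [if_neg]
    omega
  · intro hj'
    exact absurd (Finset.mem_range.2 hj) hj'

/-- `z^{N-1} (|P(z)|^2 - N)` as a polynomial -/
noncomputable def rt : ℂ[X] :=
  (pol N ε * rev N ε).map (Int.castRingHom ℂ) - C (N : ℂ) * X ^ (N - 1)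

lemma one_le_norm_coeff (hε : ∀ k, ε k = 1 ∨ ε k = -1) (j : ℕ) (hj : j < N) (hj' : 2 * j ≠ N - 1) :
    1 ≤ ‖(rt N ε).coeff (2 * j)‖ ^ 2 := by
  have h0 := coeff_odd N ε hε j hj
  have h1 : (rt N ε).coeff (2 * j) = (((pol N ε * rev N ε).coeff (2 * j) : ℤ) : ℂ) := by
    rw [rt, coeff_sub, coeff_map]
    simp [coeff_X_pow, hj']
  rw [h1, Complex.norm_intCast]
  have h2 : (1 : ℤ) ≤ |(pol N ε * rev N ε).coeff (2 * j)| := Int.one_le_abs h0
  have h3 : (1 : ℝ) ≤ |(((pol N ε * rev N ε).coeff (2 * j) : ℤ) : ℝ)| := by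
    exact_mod_cast h2
  nlinarith

lemma sum_coeff_ge (hε : ∀ k, ε k = 1 ∨ ε k = -1) :
    (N : ℝ) - 1 ≤ ∑ i ∈ (rt N ε).support, ‖(rt N ε).coeff i‖ ^ 2 := by
  set S := (range N).erase ((N - 1) / 2) with hS
  have hcard : N - 1 ≤ S.card := by
    have := Finset.pred_card_le_card_erase (s := range N) (a := (N - 1) / 2)
    simpa using this
  have hmem : ∀ j ∈ S, j < N ∧ 2 * j ≠ N - 1 := by
    intro j hj
    rw [hS, Finset.mem_erase, Finset.mem_range] at hj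
    exact ⟨hj.2, by omega⟩
  have h1 : (S.card : ℝ) ≤ ∑ j ∈ S, ‖(rt N ε).coeff (2 * j)‖ ^ 2 := by
    have : ∑ j ∈ S, (1 : ℝ) ≤ ∑ j ∈ S, ‖(rt N ε).coeff (2 * j)‖ ^ 2 :=
      Finset.sum_le_sum (fun j hj => one_le_norm_coeff N ε hε j (hmem j hj).1 (hmem j hj).2)
    simpa using this
  have h2 : ∑ j ∈ S, ‖(rt N ε).coeff (2 * j)‖ ^ 2
      = ∑ i ∈ S.image (fun j => 2 * j), ‖(rt N ε).coeff i‖ ^ 2 := by
    rw [Finset.sum_image]
    intro a _ b _ hab
    simpa using hab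
  have h3 : ∑ i ∈ S.image (fun j => 2 * j), ‖(rt N ε).coeff i‖ ^ 2
      ≤ ∑ i ∈ (rt N ε).support, ‖(rt N ε).coeff i‖ ^ 2 := by
    apply Finset.sum_le_sum_of_subset_of_nonneg
    · intro i hi
      rw [Finset.mem_image] at hi
      obtain ⟨j, hj, rfl⟩ := hi
      rw [Polynomial.mem_support_iff]
      intro h0
      have := one_le_norm_coeff N ε hε j (hmem j hj).1 (hmem j hj).2
      rw [h0] at this
      norm_num at this
    · intro i _ _
      positivity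
  have h4 : (N : ℝ) - 1 ≤ (S.card : ℝ) := by
    have : ((N - 1 : ℕ) : ℝ) ≤ (S.card : ℝ) := by exact_mod_cast hcard
    rcases Nat.eq_zero_or_pos N with h | h
    · subst h; simp; linarith [Nat.cast_nonneg (α := ℝ) S.card]
    · rw [Nat.cast_sub h] at this
      simpa using this
  linarith

lemma eval_rt (z : ℂ) (hz : ‖z‖ = 1) :
    (rt N ε).eval z
      = z ^ (N - 1) * (((‖∑ k ∈ range N, (ε k : ℂ) * z ^ k‖ ^ 2 - N : ℝ)) : ℂ) := by
  have hzz : z * (starRingEnd ℂ) z = 1 := by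
    rw [Complex.mul_conj, Complex.normSq_eq_norm_sq, hz]; simp
  have h1 : ((pol N ε).map (Int.castRingHom ℂ)).eval z = ∑ k ∈ range N, (ε k : ℂ) * z ^ k := by
    simp [pol, Polynomial.map_sum, eval_finsetSum]
  have h2 : ((rev N ε).map (Int.castRingHom ℂ)).eval z
      = z ^ (N - 1) * (starRingEnd ℂ) (∑ k ∈ range N, (ε k : ℂ) * z ^ k) := by
    simp only [rev, Polynomial.map_sum, eval_finsetSum, map_sum, Finset.mul_sum]
    apply Finset.sum_congr rfl
    intro k hk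
    have hk' := Finset.mem_range.1 hk
    have e : N - 1 = (N - 1 - k) + k := by omega
    simp only [Polynomial.map_mul, Polynomial.map_pow, map_X, eval_mul, eval_pow,
      eval_X, map_mul, map_pow, eq_intCast, map_intCast, Polynomial.map_intCast, eval_intCast]
    calc (ε k : ℂ) * z ^ (N - 1 - k) = (ε k : ℂ) * z ^ (N - 1 - k) * (z * (starRingEnd ℂ) z) ^ k := by
          rw [hzz]; simp
      _ = z ^ ((N - 1 - k) + k) * ((ε k : ℂ) * (starRingEnd ℂ) z ^ k) := by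
          rw [mul_pow, pow_add]; ring
      _ = z ^ (N - 1) * ((ε k : ℂ) * (starRingEnd ℂ) z ^ k) := by rw [← e]
  rw [rt, eval_sub, Polynomial.map_mul, eval_mul, h1, h2]
  simp only [eval_mul, eval_C, eval_pow, eval_X]
  set p := ∑ k ∈ range N, (ε k : ℂ) * z ^ k with hp
  have h3 : p * (starRingEnd ℂ) p = ((‖p‖ ^ 2 : ℝ) : ℂ) := by
    rw [Complex.mul_conj, Complex.normSq_eq_norm_sq]
  push_cast
  push_cast at h3
  linear_combination z ^ (N - 1) * h3

/-- Parseval for `P` itself: the mean of `|P|^2` is `N`. -/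
lemma mean_sq (hε : ∀ k, ε k = 1 ∨ ε k = -1) :
    Real.circleAverage (fun z : ℂ => ‖∑ k ∈ range N, (ε k : ℂ) * z ^ k‖ ^ 2) 0 1 = N := by
  set p : ℂ[X] := (pol N ε).map (Int.castRingHom ℂ) with hp
  have hcoeff : ∀ i, p.coeff i = if i < N then (ε i : ℂ) else 0 := by
    intro i
    rw [hp, coeff_map, pol, finsetSum_coeff]
    simp only [coeff_C_mul, coeff_X_pow]
    by_cases hi : i < N
    · rw [Finset.sum_eq_single i]
      · simp [hi]
      · intro b _ hb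
        simp [Ne.symm hb]
      · intro h; exact absurd (Finset.mem_range.2 hi) h
    · rw [Finset.sum_eq_zero]
      · simp [hi]
      · intro b hb
        have := Finset.mem_range.1 hb
        have : i ≠ b := by omega
        simp [this]
  have hnorm : ∀ i, i < N → ‖p.coeff i‖ ^ 2 = 1 := by
    intro i hi
    rw [hcoeff i, if_pos hi]
    rcases hε i with h | h <;> simp [h]
  have hsupp : p.support = range N := by
    ext i
    rw [Polynomial.mem_support_iff, Finset.mem_range]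
    constructor
    · intro h
      by_contra hi
      exact h (by rw [hcoeff i, if_neg hi])
    · intro hi h0
      have := hnorm i hi
      rw [h0] at this
      norm_num at this
  have h := Polynomial.sum_sq_norm_coeff_eq_circleAverage p
  rw [hsupp, Finset.sum_congr rfl (fun i hi => hnorm i (Finset.mem_range.1 hi))] at h
  have heval : ∀ z : ℂ, p.eval z = ∑ k ∈ range N, (ε k : ℂ) * z ^ k := by
    intro z
    simp [hp, pol, Polynomial.map_sum, eval_finsetSum]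
  simp only [heval] at h
  rw [← h]; simp

theorem deviation_product (hε : ∀ k, ε k = 1 ∨ ε k = -1) :
    ∃ z w : ℂ, ‖z‖ = 1 ∧ ‖w‖ = 1 ∧
      (∀ x : ℂ, ‖x‖ = 1 → ‖∑ k ∈ range N, (ε k : ℂ) * x ^ k‖ ≤ ‖∑ k ∈ range N, (ε k : ℂ) * z ^ k‖) ∧
      (∀ x : ℂ, ‖x‖ = 1 → ‖∑ k ∈ range N, (ε k : ℂ) * w ^ k‖ ≤ ‖∑ k ∈ range N, (ε k : ℂ) * x ^ k‖) ∧
      (N : ℝ) - 1 ≤ (‖∑ k ∈ range N, (ε k : ℂ) * z ^ k‖ ^ 2 - N)
        * (N - ‖∑ k ∈ range N, (ε k : ℂ) * w ^ k‖ ^ 2) := by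
  set f : ℂ → ℝ := fun x => ‖∑ k ∈ range N, (ε k : ℂ) * x ^ k‖ with hf
  have hcont : Continuous f := by fun_prop
  obtain ⟨z, hz, hmax⟩ := (isCompact_sphere (0 : ℂ) 1).exists_isMaxOn
    (NormedSpace.sphere_nonempty.2 zero_le_one) hcont.continuousOn
  obtain ⟨w, hw, hmin⟩ := (isCompact_sphere (0 : ℂ) 1).exists_isMinOn
    (NormedSpace.sphere_nonempty.2 zero_le_one) hcont.continuousOn
  have hz' : ‖z‖ = 1 := by simpa using hz
  have hw' : ‖w‖ = 1 := by simpa using hw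
  have hmax' : ∀ x : ℂ, ‖x‖ = 1 → f x ≤ f z := fun x hx => hmax (by simpa using hx)
  have hmin' : ∀ x : ℂ, ‖x‖ = 1 → f w ≤ f x := fun x hx => hmin (by simpa using hx)
  refine ⟨z, w, hz', hw', hmax', hmin', ?_⟩
  have h1 := sum_coeff_ge N ε hε
  rw [Polynomial.sum_sq_norm_coeff_eq_circleAverage] at h1
  set a := f z ^ 2 - N with ha
  set b := N - f w ^ 2 with hb
  have hci : ∀ g : ℂ → ℝ, Continuous g → CircleIntegrable g 0 1 :=
    fun g hg => hg.continuousOn.circleIntegrable zero_le_one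
  have h2 : Real.circleAverage (fun x : ℂ => ‖(rt N ε).eval x‖ ^ 2) 0 1
      ≤ Real.circleAverage (fun x : ℂ => (a - b) • (f x ^ 2) + (a * b - (a - b) * N)) 0 1 := by
    apply Real.circleAverage_mono
    · exact hci _ (by fun_prop)
    · exact hci _ (by fun_prop)
    · intro x hx
      have hx' : ‖x‖ = 1 := by simpa using hx
      have e : ‖(rt N ε).eval x‖ ^ 2 = (f x ^ 2 - N) ^ 2 := by
        rw [eval_rt N ε x hx', norm_mul, norm_pow, hx', one_pow, one_mul, Complex.norm_real,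
          Real.norm_eq_abs, sq_abs]
      rw [e]
      have h3 : f x ^ 2 ≤ f z ^ 2 := pow_le_pow_left₀ (norm_nonneg _) (hmax' x hx') 2
      have h4 : f w ^ 2 ≤ f x ^ 2 := pow_le_pow_left₀ (norm_nonneg _) (hmin' x hx') 2
      simp only [smul_eq_mul]
      nlinarith [mul_nonneg (sub_nonneg.2 h3) (sub_nonneg.2 h4)]
  rw [Real.circleAverage_fun_add (hci _ (by fun_prop)) (hci _ (by fun_prop)),
    Real.circleAverage_fun_smul, Real.circleAverage_const, mean_sq N ε hε] at h2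
  simp only [smul_eq_mul] at h2
  linarith

/-- version with the sign condition only for `k < N` -/
theorem deviation_product' (hε : ∀ k < N, ε k = 1 ∨ ε k = -1) :
    ∃ z w : ℂ, ‖z‖ = 1 ∧ ‖w‖ = 1 ∧
      (∀ x : ℂ, ‖x‖ = 1 → ‖∑ k ∈ range N, (ε k : ℂ) * x ^ k‖ ≤ ‖∑ k ∈ range N, (ε k : ℂ) * z ^ k‖) ∧
      (∀ x : ℂ, ‖x‖ = 1 → ‖∑ k ∈ range N, (ε k : ℂ) * w ^ k‖ ≤ ‖∑ k ∈ range N, (ε k : ℂ) * x ^ k‖) ∧
      (N : ℝ) - 1 ≤ (‖∑ k ∈ range N, (ε k : ℂ) * z ^ k‖ ^ 2 - N)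
        * (N - ‖∑ k ∈ range N, (ε k : ℂ) * w ^ k‖ ^ 2) := by
  set ε' : ℕ → ℤ := fun k => if k < N then ε k else 1 with hε'
  have h1 : ∀ k, ε' k = 1 ∨ ε' k = -1 := by
    intro k
    by_cases hk : k < N
    · simp only [hε', if_pos hk]; exact hε k hk
    · simp only [hε', if_neg hk]; exact Or.inl trivial
  have h2 : ∀ x : ℂ, ∑ k ∈ range N, (ε' k : ℂ) * x ^ k = ∑ k ∈ range N, (ε k : ℂ) * x ^ k := by
    intro x
    apply Finset.sum_congr rfl
    intro k hk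
    simp only [hε', if_pos (Finset.mem_range.1 hk)]
  have := deviation_product N ε' h1
  simpa only [h2] using this

theorem flat_rate (hN : 1 ≤ N) (hε : ∀ k < N, ε k = 1 ∨ ε k = -1) (c : ℝ)
    (hflat : ∀ z : ℂ, ‖z‖ = 1 →
      (1 - c) * Real.sqrt N ≤ ‖∑ k ∈ range N, (ε k : ℂ) * z ^ k‖ ∧
      ‖∑ k ∈ range N, (ε k : ℂ) * z ^ k‖ ≤ (1 + c) * Real.sqrt N) :
    Real.sqrt (N - 1) / (2 * N) ≤ c := by
  obtain ⟨z, w, hz, hw, hmax, _, hprod⟩ := deviation_product' N ε hε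
  have hNr : (1 : ℝ) ≤ N := by exact_mod_cast hN
  set s := Real.sqrt N with hs
  have hs1 : 1 ≤ s := by rw [hs]; exact Real.one_le_sqrt.2 hNr
  have hss : s ^ 2 = N := Real.sq_sqrt (by linarith)
  set r := Real.sqrt (N - 1) with hr
  have hr0 : 0 ≤ r := Real.sqrt_nonneg _
  have hrr : r ^ 2 = N - 1 := Real.sq_sqrt (by linarith)
  have hrN : r ≤ N := by nlinarith
  have hc0 : 0 ≤ c := by
    have := hflat z hz
    nlinarith [this.1, this.2]
  rw [div_le_iff₀ (by positivity)]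
  rcases le_or_gt c 1 with hc1 | hc1
  swap
  · nlinarith
  set fz := ‖∑ k ∈ range N, (ε k : ℂ) * z ^ k‖ with hfz
  set fw := ‖∑ k ∈ range N, (ε k : ℂ) * w ^ k‖ with hfw
  have hfz0 : 0 ≤ fz := norm_nonneg _
  have hfw0 : 0 ≤ fw := norm_nonneg _
  have hwz : fw ≤ fz := hmax w hw
  have h1 : fz ^ 2 ≤ ((1 + c) * s) ^ 2 := pow_le_pow_left₀ hfz0 (hflat z hz).2 2
  have h2 : ((1 - c) * s) ^ 2 ≤ fw ^ 2 :=
    pow_le_pow_left₀ (mul_nonneg (by linarith) (by linarith)) (hflat w hw).1 2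
  have ha : fz ^ 2 - N ≤ (2 * c + c ^ 2) * N := by
    rw [mul_pow, hss] at h1; nlinarith
  have hb : N - fw ^ 2 ≤ (2 * c - c ^ 2) * N := by
    rw [mul_pow, hss] at h2; nlinarith
  have hwz2 : fw ^ 2 ≤ fz ^ 2 := pow_le_pow_left₀ hfw0 hwz 2
  -- r^2 ≤ a b ≤ 4 c^2 N^2
  have hkey : r ^ 2 ≤ (c * (2 * N)) ^ 2 := by
    rw [hrr]
    rcases le_or_gt (fz ^ 2 - N) 0 with hneg | hpos
    · -- a ≤ 0 : then b ≥ 0 (since fw ≤ fz), product ≤ 0
      have hb0 : 0 ≤ N - fw ^ 2 := by linarith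
      have : (fz ^ 2 - N) * (N - fw ^ 2) ≤ 0 := mul_nonpos_of_nonpos_of_nonneg hneg hb0
      have h0 : (0:ℝ) ≤ (c * (2 * N)) ^ 2 := by positivity
      linarith
    · rcases le_or_gt (N - fw ^ 2) 0 with hneg' | hpos'
      · have : (fz ^ 2 - N) * (N - fw ^ 2) ≤ 0 := mul_nonpos_of_nonneg_of_nonpos hpos.le hneg'
        have h0 : (0:ℝ) ≤ (c * (2 * N)) ^ 2 := by positivity
        linarith
      · have h3 : (fz ^ 2 - N) * (N - fw ^ 2) ≤ ((2 * c + c ^ 2) * N) * ((2 * c - c ^ 2) * N) :=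
          mul_le_mul ha hb hpos'.le (by positivity)
        have h4 : ((2 * c + c ^ 2) * N) * ((2 * c - c ^ 2) * N) ≤ (c * (2 * N)) ^ 2 := by
          have : 0 ≤ c ^ 4 * (N:ℝ) ^ 2 := by positivity
          nlinarith
        linarith
  exact abs_le_of_sq_le_sq' hkey (by positivity) |>.2

end Vale.Agent.Lib.P110
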